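import Vale.Agent.P071.H262.Inst
import Vale.Agent.P071.H592.HotFinal
import Vale.Agent.P071.H969.EmbDef

/-!
# P071: hot spots for simply connected planar domains, for the heat flow, and for metrics of
nonpositive curvature
-/

open MeasureTheory Metric

namespace Vale.Agent.Results.P071.HeatFlowAndCurvature

open Vale.Agent.P071 Vale.Agent.P071.H262

/-- (1) **The hot spots conjecture for simply connected planar domains (Q1).** Every nonzero
`u ∈ V(Ω)` of a bounded simply connected planar Lipschitz domain `Ω` satisfies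
`min_{∂Ω} u < u(x) < max_{∂Ω} u` for all `x ∈ Ω`.

(2) **The hot spots of the heat flow (Rauch's form).** Let `Ω` be a bounded simply connected
planar open set which has Lipschitz boundary or for which `H¹(Ω)` embeds compactly in `L²(Ω)`.
For every initial datum `f ∈ L²(Ω)` the heat flow `w(t)`, `t > 0`, with Neumann boundary
condition exists, is unique, and is `C¹` in `Ω`; and if `∫_Ω f v ≠ 0` for some `v ∈ V(Ω)`, then
for every compact `K ⊂ Ω` there is `T` such that for all `t ≥ T` the function `w(t)` has no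
critical point in `K`, and `K` contains no hottest and no coldest point:
`max_K w(t) < w(t)(y)` and `w(t)(y') < min_K w(t)` for some `y, y' ∈ Ω`.

(3) **Metrics of nonpositive curvature.** Let `κ > 0` be given on the closed unit disc `D` by a
power series in `z, conj z`, such that the metric `κ |dz|²` has Gauss curvature `≤ 0`. The first
positive Neumann eigenspace of `(D, κ |dz|²)` is not zero, and every `u ≠ 0` in it has a version
`w`, `C^8` on the closed disc, without critical point in the open disc, with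
`min_{∂D} w < w(x) < max_{∂D} w` for `|x| < 1`; and every `v` in the eigenspace whose gradient is
parallel to that of `w` at one point of the open disc is a multiple of `w` (so the multiplicity
is at most two).

(4) The metrics of (3) include `κ = |F|²` (the flat disc immersed in the plane by a primitive
of `F`), and `κ = 4 |f'|² / (1 - |f|²)²` (the disc immersed by `f` in the hyperbolic plane) for
all `F, f` holomorphic on a neighbourhood of the closed disc (`κ > 0` if `F`, `f'` have no zero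
on it). -/
theorem result :
    (∀ Ω : Set ℂ, IsOpen Ω → Bornology.IsBounded Ω → IsSimplyConnected Ω →
      LipschitzBoundary Ω → ∀ u : ℂ → ℝ, InV Ω u → ContinuousOn u (closure Ω) →
      (∃ z ∈ Ω, u z ≠ 0) →
      ∃ a ∈ frontier Ω, ∃ b ∈ frontier Ω, (∀ y ∈ frontier Ω, u a ≤ u y ∧ u y ≤ u b) ∧
        ∀ x ∈ Ω, u a < u x ∧ u x < u b) ∧
    (∀ Ω : Set ℂ, IsOpen Ω → Bornology.IsBounded Ω → IsSimplyConnected Ω →
      (LipschitzBoundary Ω ∨ CompactEmbedding Ω) → ∀ f : ℂ → ℝ, MemLp f 2 (volume.restrict Ω) →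
      ∃ w : ℝ → ℂ → ℝ, IsNeumannFlow Ω f w ∧ (∀ t, 0 < t → ContDiffOn ℝ 1 (w t) Ω) ∧
        (∀ u : ℝ → ℂ → ℝ, IsNeumannFlow Ω f u → ∀ t, 0 < t →
          ∀ᵐ z ∂(volume.restrict Ω), u t z = w t z) ∧
        ((∃ v : ℂ → ℝ, InV Ω v ∧ ∫ z in Ω, f z * v z ≠ 0) →
          ∀ K : Set ℂ, IsCompact K → K ⊆ Ω → ∃ T : ℝ, 0 < T ∧ ∀ t, T ≤ t →
            (∀ x ∈ K, fderiv ℝ (w t) x ≠ 0) ∧
            (∃ y ∈ Ω, ∀ x ∈ K, w t x < w t y) ∧ ∃ y ∈ Ω, ∀ x ∈ K, w t y < w t x)) ∧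
    (∀ κ : ℂ → ℝ, SeriesWeight κ → (∀ z : ℂ, ‖z‖ ≤ 1 → 0 < κ z) → NonposCurved κ →
      (∃ u : ℂ → ℝ, InVD κ u ∧ ¬ ∀ᵐ z ∂(volume.restrict (ball (0 : ℂ) 1)), u z = 0) ∧
      ∀ u : ℂ → ℝ, InVD κ u → (¬ ∀ᵐ z ∂(volume.restrict (ball (0 : ℂ) 1)), u z = 0) →
      ∃ w : ℂ → ℝ, (∀ᵐ z ∂(volume.restrict (ball (0 : ℂ) 1)), w z = u z) ∧ InVD κ w ∧
        ContDiffOn ℝ 8 w (closedBall 0 1) ∧ (∀ x ∈ ball (0 : ℂ) 1, fderiv ℝ w x ≠ 0) ∧
        (∃ a ∈ sphere (0 : ℂ) 1, ∃ b ∈ sphere (0 : ℂ) 1,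
          (∀ y ∈ sphere (0 : ℂ) 1, w a ≤ w y ∧ w y ≤ w b) ∧
            ∀ x ∈ ball (0 : ℂ) 1, w a < w x ∧ w x < w b) ∧
        ∀ v : ℂ → ℝ, InVD κ v → ContinuousOn v (ball 0 1) →
          (∃ x ∈ ball (0 : ℂ) 1, px w x * py v x = py w x * px v x) →
          ∃ c : ℝ, ∀ z ∈ ball (0 : ℂ) 1, v z = c * w z) ∧
    (∀ (R : ℝ) (F : ℂ → ℂ), 1 < R → DifferentiableOn ℂ F (ball 0 R) →
      SeriesWeight (fun z => ‖F z‖ ^ 2) ∧ NonposCurved (fun z => ‖F z‖ ^ 2)) ∧
    (∀ (R : ℝ) (f : ℂ → ℂ), 1 < R → DifferentiableOn ℂ f (ball 0 R) →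
      (∀ z : ℂ, ‖z‖ ≤ 1 → ‖f z‖ < 1) →
      SeriesWeight (fun z => 4 * ‖deriv f z‖ ^ 2 / (1 - ‖f z‖ ^ 2) ^ 2) ∧
        NonposCurved (fun z => 4 * ‖deriv f z‖ ^ 2 / (1 - ‖f z‖ ^ 2) ^ 2)) :=
  ⟨fun Ω ho hb hs hL u hu hc h0 =>
      Lim.hot_spots_of (fun _ ho hs hn => RMT.riemann_mapping ho hs hn)
        (fun _ _ hf => G.disc_thm hf) Ω ho hb hs hL u hu hc h0,
    fun _ ho hb hs hΩ _ hf => NF.heat_hot_spots ho hb hs (NC.tight_of_or ho hb hΩ) hf,
    fun _ hs hp hK => H262.main hs hp hK,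
    fun _ _ hR hF => H262.flat hR hF,
    fun _ _ hR hf hf1 => H262.hyp hR hf hf1⟩

end Vale.Agent.Results.P071.HeatFlowAndCurvature
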