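import Vale.Agent.P071.H969.Final
import Vale.Agent.P071.H969.EmbDef

/-!
# P071: first Neumann eigenfunctions of simply connected planar domains have no critical point
-/

open MeasureTheory Metric

namespace Vale.Agent.Results.P071.NoCriticalPoint

open Vale.Agent.P071

/-- (1) **The hot spots conjecture for simply connected planar domains (Q1).** Every nonzero
`u ∈ V(Ω)` of a bounded simply connected planar Lipschitz domain `Ω` satisfies
`min_{∂Ω} u < u(x) < max_{∂Ω} u` for all `x ∈ Ω`.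

(2) **No interior critical points.** Let `Ω` be a bounded simply connected planar open set which
has Lipschitz boundary or for which `H¹(Ω)` embeds compactly in `L²(Ω)`. Every `u ∈ V(Ω)`, not
a.e. zero, has a `C²` version `w` (continuous on the closure if the boundary is Lipschitz) such
that `∇w(x) ≠ 0` for every `x ∈ Ω`; for every `η ∈ C¹_c(Ω)`,
`∫ η² w² / |∇w|² ≤ (16 / μ₁²) ∫ |∇η|²`; and every `v ∈ V(Ω)` whose gradient is parallel to that of
`w` at one point of `Ω` is a multiple of `w`. -/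
theorem result :
    (∀ Ω : Set ℂ, IsOpen Ω → Bornology.IsBounded Ω → IsSimplyConnected Ω →
      LipschitzBoundary Ω → ∀ u : ℂ → ℝ, InV Ω u → ContinuousOn u (closure Ω) →
      (∃ z ∈ Ω, u z ≠ 0) →
      ∃ a ∈ frontier Ω, ∃ b ∈ frontier Ω, (∀ y ∈ frontier Ω, u a ≤ u y ∧ u y ≤ u b) ∧
        ∀ x ∈ Ω, u a < u x ∧ u x < u b) ∧
    (∀ Ω : Set ℂ, IsOpen Ω → Bornology.IsBounded Ω → IsSimplyConnected Ω →
      (LipschitzBoundary Ω ∨ CompactEmbedding Ω) → ∀ u : ℂ → ℝ, InV Ω u →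
      (¬ ∀ᵐ z ∂(volume.restrict Ω), u z = 0) →
      ∃ w : ℂ → ℝ, (∀ᵐ z ∂(volume.restrict Ω), w z = u z) ∧ InV Ω w ∧ ContDiffOn ℝ 2 w Ω ∧
        (LipschitzBoundary Ω → ContinuousOn w (closure Ω)) ∧
        (∀ x ∈ Ω, fderiv ℝ w x ≠ 0) ∧
        (∀ η : ℂ → ℝ, ContDiff ℝ 1 η → HasCompactSupport η → tsupport η ⊆ Ω →
          IntegrableOn (fun z => η z ^ 2 * w z ^ 2 / (px w z ^ 2 + py w z ^ 2)) Ω ∧
          ∫ z in Ω, η z ^ 2 * w z ^ 2 / (px w z ^ 2 + py w z ^ 2) ≤
            16 / muOne Ω ^ 2 * ∫ z in Ω, (px η z ^ 2 + py η z ^ 2)) ∧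
        (∀ v : ℂ → ℝ, InV Ω v → ContinuousOn v Ω →
          (∃ x ∈ Ω, px w x * py v x = py w x * px v x) → ∃ c : ℝ, ∀ z ∈ Ω, v z = c * w z)) := by
  refine ⟨fun Ω ho hb hs hL u hu hc h0 => ?_, fun Ω ho hb hs hΩ u hu h0 => ?_⟩
  · exact Lim.hot_spots_of (fun _ ho hs hn => RMT.riemann_mapping ho hs hn)
      (fun _ _ hf => G.disc_thm hf) Ω ho hb hs hL u hu hc h0
  · have hT := NC.tight_of_or ho hb hΩ
    obtain ⟨w, hc, hw, hV, hcl⟩ := NC.exists_version ho hu
    have h0' : ∃ z ∈ Ω, w z ≠ 0 := by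
      by_contra hcon
      push Not at hcon
      apply h0
      filter_upwards [hw, ae_restrict_mem ho.measurableSet] with z h1 h2
      rw [← h1]
      exact hcon z h2
    exact ⟨w, hw, hV, (NC.smooth_of_inV ho hV hc).1, hcl, NC.no_crit ho hb hs hT hV hc h0',
      fun η h1 h2 h3 => NC.weighted ho hb hs hT hV hc h0' h1 h2 h3,
      fun v hv hv' ⟨x, hx, hdet⟩ => NC.proportional ho hb hs hT hV hv hc hv' h0' hx hdet⟩

end Vale.Agent.Results.P071.NoCriticalPoint
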